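import Vale.Agent.P129B.Nat0

/-!
# Transitive sets, induction and recursion along membership in a model of ZFC
-/

set_option autoImplicit false
set_option linter.all false

namespace Vale.Agent.P129B

universe v

variable {N : Type v} [ZM N]

/-- A definable relation on the model itself. -/
theorem DefF.d2 {R : N → N → Prop} (h : DefF N (fun p : N × N => R p.1 p.2)) : D2 R := by
  refine (((DE.op 0 1 2).imp ((defP_iff.1 h).at 0)).all).congr fun v => ?_
  simp only [cons_zero, cons_one, cons_two, forall_eq]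
  exact cl_code (P := fun p : N × N => R p.1 p.2) (a := (v 0, v 1)) inferInstance

/-- Replacement for a definable relation which is functional on `A`. -/
theorem repl_rel {R : N → N → Prop} (h : DefF N (fun p : N × N => R p.1 p.2)) (A : N)
    (H : ∀ x, x ∈ A → ∀ y z, R x y → R x z → y = z) :
    ∃ B : N, ∀ y, y ∈ B ↔ ∃ x, x ∈ A ∧ R x y := by
  have h1 : DefF N (fun x : N => ∃ y : N, R x y) := DefF.exN h
  obtain ⟨A', hA'⟩ := h1.sep A
  obtain ⟨B, hB⟩ := h.d2.repl A' fun x hx => by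
    obtain ⟨h2, y, hy⟩ := (hA' x).1 hx
    exact ⟨y, hy, fun z hz => H x h2 z y hz hy⟩
  refine ⟨B, fun y => (hB y).trans ⟨?_, ?_⟩⟩
  · rintro ⟨x, hx, h2⟩
    exact ⟨x, ((hA' x).1 hx).1, h2⟩
  · rintro ⟨x, hx, h2⟩
    exact ⟨x, (hA' x).2 ⟨hx, y, h2⟩, h2⟩

/-- Replacement for a definable function. -/
theorem repl_fun {f : N → N} (h : DefF N f) (A : N) :
    ∃ B : N, ∀ z, z ∈ B ↔ ∃ y, y ∈ A ∧ z = f y :=
  repl_rel (R := fun y z => z = f y) (by fun_prop) A fun _ _ _ _ h1 h2 => h1.trans h2.symm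

theorem ins_inj {a b : N} (h : ins a a = ins b b) : a = b := by
  have h1 : a ∈ ins b b := h ▸ mem_ins.2 (Or.inr rfl)
  have h2 : b ∈ ins a a := h ▸ mem_ins.2 (Or.inr rfl)
  rcases mem_ins.1 h1 with h3 | h3
  · rcases mem_ins.1 h2 with h4 | h4
    exacts [absurd h4 (mem_asymm h3), h4.symm]
  · exact h3

theorem ins_ne_emp (a b : N) : ins a b ≠ emp N := fun h =>
  not_mem_emp a (h ▸ mem_ins.2 (Or.inr rfl))

/-- iterated unions -/
def ItU (x n y : N) : Prop := ∃ f : N, op n y ∈ f ∧ ∀ m z : N, op m z ∈ f →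
  (m = emp N ∧ z = upair x x) ∨ ∃ m' z' : N, op m' z' ∈ f ∧ m = ins m' m' ∧ z = sUnion z'

theorem defF_itU (x : N) : DefF N (fun p : N × N => ItU x p.1 p.2) := by
  unfold ItU
  fun_prop

theorem itU_zero (x : N) : ItU x (emp N) (upair x x) :=
  ⟨upair (op (emp N) (upair x x)) (op (emp N) (upair x x)), mem_upair.2 (Or.inl rfl),
    fun m z h => Or.inl (op_inj.1 ((mem_upair.1 h).elim id id))⟩

theorem ItU.succ {x n y : N} (h : ItU x n y) : ItU x (ins n n) (sUnion y) := by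
  obtain ⟨f, h1, h2⟩ := h
  refine ⟨ins (op (ins n n) (sUnion y)) f, mem_ins.2 (Or.inr rfl), fun m z h => ?_⟩
  rcases mem_ins.1 h with h | h
  · rcases h2 m z h with h | ⟨m', z', h3, h4⟩
    · exact Or.inl h
    · exact Or.inr ⟨m', z', mem_ins.2 (Or.inl h3), h4⟩
  · exact Or.inr ⟨n, y, mem_ins.2 (Or.inl h1), op_inj.1 h⟩

theorem ItU.cases {x n y : N} (h : ItU x n y) :
    (n = emp N ∧ y = upair x x) ∨ ∃ m z : N, ItU x m z ∧ n = ins m m ∧ y = sUnion z := by
  obtain ⟨f, h1, h2⟩ := h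
  rcases h2 n y h1 with h | ⟨m', z', h3, h4⟩
  · exact Or.inl h
  · exact Or.inr ⟨m', z', ⟨f, h3, h2⟩, h4⟩

/-- Every set is a member of a transitive set. -/
theorem exists_trans (x : N) : ∃ T : N, x ∈ T ∧ ∀ y, y ∈ T → ∀ z, z ∈ y → z ∈ T := by
  have hd := defF_itU x
  have hd' : ∀ {α : Type v} [Coded N α] {f g : α → N}, DefF N f → DefF N g →
      DefF N (fun a => ItU x (f a) (g a)) := fun hf hg => hd.comp2 (F := ItU x) hf hg
  obtain ⟨B, hB⟩ := repl_rel hd (omega N) fun n hn => by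
    refine omega_ind (Q := fun n => ∀ y z, ItU x n y → ItU x n z → y = z)
      (DefF.allN (DefF.allN (DefF.imp (hd' (by fun_prop) (by fun_prop))
        (DefF.imp (hd' (by fun_prop) (by fun_prop)) (by fun_prop))))) ?_ ?_ hn
    · intro y z hy hz
      rcases hy.cases with h | ⟨m, _, _, h, -⟩
      · rcases hz.cases with h' | ⟨m, _, _, h', -⟩
        · rw [h.2, h'.2]
        · exact absurd h'.symm (ins_ne_emp _ _)
      · exact absurd h.symm (ins_ne_emp _ _)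
    · intro n _ ih y z hy hz
      rcases hy.cases with h | ⟨m, y', h1, h, rfl⟩
      · exact absurd h.1 (ins_ne_emp _ _)
      · rcases hz.cases with h' | ⟨m', z', h2, h', rfl⟩
        · exact absurd h'.1 (ins_ne_emp _ _)
        · rw [← ins_inj h] at h1
          rw [← ins_inj h'] at h2
          rw [ih _ _ h1 h2]
  refine ⟨sUnion B, mem_sUnion.2 ⟨_, (hB _).2 ⟨_, ind_omega.1, itU_zero x⟩,
    mem_upair.2 (Or.inl rfl)⟩, fun y hy z hz => ?_⟩
  obtain ⟨w, hw, hyw⟩ := mem_sUnion.1 hy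
  obtain ⟨n, hn, h⟩ := (hB w).1 hw
  exact mem_sUnion.2 ⟨_, (hB _).2 ⟨_, ind_omega.2 n hn, h.succ⟩, mem_sUnion.2 ⟨y, hyw, hz⟩⟩

/-- Two sets are members of a transitive set. -/
theorem exists_trans₂ (x x' : N) :
    ∃ T : N, x ∈ T ∧ x' ∈ T ∧ ∀ y, y ∈ T → ∀ z, z ∈ y → z ∈ T := by
  obtain ⟨T, h1, h2⟩ := exists_trans (upair x x')
  exact ⟨T, h2 _ h1 _ (mem_upair.2 (Or.inl rfl)), h2 _ h1 _ (mem_upair.2 (Or.inr rfl)), h2⟩

/-- Induction along membership for definable classes. -/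
theorem mem_ind {Q : N → Prop} (hQ : DefF N Q) (h : ∀ x, (∀ y, y ∈ x → Q y) → Q x) (x : N) :
    Q x := by
  by_contra hx
  obtain ⟨T, h1, h2⟩ := exists_trans x
  obtain ⟨A, hA⟩ := hQ.not.sep T
  obtain ⟨y, hy, hy'⟩ := found ((hA x).2 ⟨h1, hx⟩)
  obtain ⟨h3, h4⟩ := (hA y).1 hy
  refine h4 (h y fun z hz => ?_)
  by_contra h5
  exact hy' z ((hA z).2 ⟨h2 y h3 z hz, h5⟩) hz

/-- A nonempty definable class has a minimal member. -/
theorem exists_mem_min {Q : N → Prop} (hQ : DefF N Q) {x : N} (hx : Q x) :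
    ∃ x, Q x ∧ ∀ y, y ∈ x → ¬ Q y := by
  by_contra h
  refine mem_ind hQ.not (fun x ih hx => h ⟨x, hx, ih⟩) x hx

/-- partial solutions of a recursion -/
def RGood (F : N → N → N) (f : N) : Prop := ∀ a b : N, op a b ∈ f →
  (∀ y : N, y ∈ a → ∃ c : N, op y c ∈ f) ∧
    ∃ S : N, b = F a S ∧ ∀ z : N, z ∈ S ↔ ∃ y : N, y ∈ a ∧ op y z ∈ f

theorem defF_rGood {F : N → N → N} (hF : DefF N (fun p : N × N => F p.1 p.2)) :
    DefF N (RGood F) := by
  have h1 : DefF N (fun p : ((N × N) × N) × N => F p.1.1.2 p.2) :=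
    hF.comp2 (F := F) (by fun_prop) (by fun_prop)
  unfold RGood
  refine DefF.allN (DefF.allN (DefF.imp (by fun_prop) (DefF.and (by fun_prop)
    (DefF.exN (DefF.and (DefF.eq (by fun_prop) h1) (by fun_prop))))))

theorem RGood.unique {F : N → N → N} (hF : DefF N (fun p : N × N => F p.1 p.2)) {f g : N}
    (hf : RGood F f) (hg : RGood F g) (a : N) : ∀ b c, op a b ∈ f → op a c ∈ g → b = c := by
  refine mem_ind (Q := fun a => ∀ b c, op a b ∈ f → op a c ∈ g → b = c) (by fun_prop)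
    (fun a ih b c hb hc => ?_) a
  obtain ⟨h1, S, rfl, h2⟩ := hf a b hb
  obtain ⟨h3, S', rfl, h4⟩ := hg a c hc
  congr 1
  refine ext fun z => ?_
  rw [h2, h4]
  constructor
  · rintro ⟨y, hy, hz⟩
    obtain ⟨c, hc⟩ := h3 y hy
    exact ⟨y, hy, by rw [ih y hy z c hz hc]; exact hc⟩
  · rintro ⟨y, hy, hz⟩
    obtain ⟨c, hc⟩ := h1 y hy
    exact ⟨y, hy, by rw [← ih y hy c z hc hz]; exact hc⟩

/-- Recursion along membership. -/
theorem mem_rec' (F : N → N → N) (hF : DefF N (fun p : N × N => F p.1 p.2)) :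
    ∃ H : N → N, DefF N H ∧
      ∀ x, ∃ S : N, (∀ z, z ∈ S ↔ ∃ y, y ∈ x ∧ z = H y) ∧ H x = F x S := by
  have hg := defF_rGood hF
  let G : N → N → Prop := fun a b => ∃ f : N, RGood F f ∧ op a b ∈ f
  have hG : DefF N (fun p : N × N => G p.1 p.2) :=
    DefF.exN (DefF.and (hg.comp (by fun_prop)) (by fun_prop))
  have hu : ∀ a b c, G a b → G a c → b = c := fun a b c ⟨f, hf, h1⟩ ⟨g, hg, h2⟩ =>
    hf.unique hF hg a b c h1 h2
  have hst : ∀ a b, G a b → (∀ y, y ∈ a → ∃ c, G y c) ∧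
      ∃ S : N, b = F a S ∧ ∀ z : N, z ∈ S ↔ ∃ y : N, y ∈ a ∧ G y z := by
    rintro a b ⟨f, hf, h1⟩
    obtain ⟨h2, S, h3, h4⟩ := hf a b h1
    refine ⟨fun y hy => (h2 y hy).imp fun c hc => ⟨f, hf, hc⟩, S, h3, fun z => (h4 z).trans ?_⟩
    refine exists_congr fun y => and_congr_right fun hy => ⟨fun h => ⟨f, hf, h⟩, fun h => ?_⟩
    obtain ⟨c, hc⟩ := h2 y hy
    rw [hu y z c h ⟨f, hf, hc⟩]
    exact hc
  have hex : ∀ a, ∃ b, G a b := by
    refine mem_ind (DefF.exN hG) fun a ih => ?_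
    by_contra hno
    obtain ⟨T, h1, h2⟩ := exists_trans a
    obtain ⟨f, hf⟩ := repl_rel (R := fun y p => ∃ c : N, G y c ∧ p = op y c)
      (DefF.exN (DefF.and (hG.comp2 (F := G) (by fun_prop) (by fun_prop)) (by fun_prop))) T
      (fun y _ _ _ ⟨c, h3, h4⟩ ⟨d, h5, h6⟩ => by rw [h4, h6, hu y c d h3 h5])
    have hf' : ∀ y c, op y c ∈ f ↔ y ∈ T ∧ G y c := by
      intro y c
      rw [hf]
      constructor
      · rintro ⟨y', h3, c', h4, h5⟩
        obtain ⟨rfl, rfl⟩ := op_inj.1 h5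
        exact ⟨h3, h4⟩
      · exact fun h => ⟨y, h.1, c, h.2, rfl⟩
    obtain ⟨S, hS⟩ := repl_rel hG a fun y _ => hu y
    have hf2 : ∀ y c, y ≠ a → (op y c ∈ ins (op a (F a S)) f ↔ y ∈ T ∧ G y c) := by
      intro y c hy
      rw [mem_ins, hf', op_inj]
      exact ⟨fun h => h.elim id fun h => absurd h.1 hy, Or.inl⟩
    refine hno ⟨F a S, ins (op a (F a S)) f, fun y c h => ?_, mem_ins.2 (Or.inr rfl)⟩
    rcases mem_ins.1 h with h | h
    · obtain ⟨h3, h4⟩ := (hf' y c).1 h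
      obtain ⟨h5, S', h6, h7⟩ := hst y c h4
      have h8 : ∀ u, u ∈ y → u ≠ a := by
        rintro u hu rfl
        exact hno (h5 u hu)
      refine ⟨fun u hu => (h5 u hu).imp fun d hd => (hf2 u d (h8 u hu)).2 ⟨h2 y h3 u hu, hd⟩,
        S', h6, fun z => (h7 z).trans (exists_congr fun u => and_congr_right fun hu => ?_)⟩
      rw [hf2 u z (h8 u hu)]
      exact (and_iff_right (h2 y h3 u hu)).symm
    · obtain ⟨rfl, rfl⟩ := op_inj.1 h
      have h8 : ∀ u, u ∈ y → u ≠ y := by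
        rintro u hu rfl
        exact mem_irrefl _ hu
      refine ⟨fun u hu => (ih u hu).imp fun d hd => (hf2 u d (h8 u hu)).2 ⟨h2 y h1 u hu, hd⟩,
        S, rfl, fun z => (hS z).trans (exists_congr fun u => and_congr_right fun hu => ?_)⟩
      rw [hf2 u z (h8 u hu)]
      exact (and_iff_right (h2 y h1 u hu)).symm
  choose H hH using hex
  have hGH : ∀ a b, G a b ↔ H a = b := fun a b =>
    ⟨fun h => hu a _ _ (hH a) h, fun h => h ▸ hH a⟩
  refine ⟨H, defF_of_rel (fun _ _ => inferInstance) hG fun a b _ _ => hGH a b, fun x => ?_⟩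
  obtain ⟨-, S, h1, h2⟩ := hst x _ (hH x)
  exact ⟨S, fun z => (h2 z).trans (exists_congr fun y => and_congr_right fun _ =>
    (hGH y z).trans eq_comm), h1⟩

/-- Recursion along membership, without the argument. -/
theorem mem_rec (Psi : N → N) (h : DefF N Psi) :
    ∃ H : N → N, DefF N H ∧
      ∀ x, ∃ S : N, (∀ z, z ∈ S ↔ ∃ y, y ∈ x ∧ z = H y) ∧ H x = Psi S :=
  mem_rec' (fun _ S => Psi S) (h.comp DefF.id.snd)

end Vale.Agent.P129B
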