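import Vale.Agent.P129BQ.Defs
import Vale.Agent.P129BO.FS
import Vale.Agent.P129BH.Arith

/-!
# The free set principle in the generic extension
-/

set_option autoImplicit false
set_option linter.all false

namespace Vale.Agent.P129B

open Vale.Agent.P129BH

universe v w

variable {N : Type v} [ZM N] {M : Type w} [ZM M] {j : N → M}
variable {P : Type*} [Coded N P] [Tot N P] [Preorder P] {G : Set P}

/-- What the generic filter decides about the elements of a ground set is definable in the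
extension. -/
theorem GExt.defP (hG : GExt j G) (hj : Ext j) {α α' : Type*} [Coded N α] [Tot N α] [Coded M α']
    [Tot M α'] {e : α ≃ α'} (t : Tr j e) {φ : α → P → Prop}
    (hφ : DefF N (fun x : α × P => φ x.1 x.2)) :
    DefF M (fun a : α' => ∃ p ∈ G, φ (e.symm a) p) := by
  obtain ⟨s, hs⟩ := hG.comp (car N α) (fun x p => ∃ a : α, code N a = x ∧ φ a p)
    (DefF.exT (DefF.and (by fun_prop) (hφ.comp2 (F := φ) (by fun_prop) (by fun_prop))))
  have h1 : DefF M (fun a : α' => code M a ∈ s) := by fun_prop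
  refine h1.congrP fun a _ => ?_
  obtain ⟨b, rfl⟩ := e.surjective a
  rw [hs, t.code, e.symm_apply_apply]
  constructor
  · rintro ⟨x, -, h2, p, hp, c, rfl, h3⟩
    rw [← code_inj inferInstance inferInstance (hj.inj h2)]
    exact ⟨p, hp, h3⟩
  · rintro ⟨p, hp, h3⟩
    exact ⟨_, mem_car.2 ⟨b, rfl⟩, rfl, p, hp, b, rfl, h3⟩

theorem GExt.dir3 (hG : GExt j G) {p q r : P} (hp : p ∈ G) (hq : q ∈ G) (hr : r ∈ G) :
    ∃ s ∈ G, s ≤ p ∧ s ≤ q ∧ s ≤ r := by
  obtain ⟨a, ha, h1, h2⟩ := hG.dir p hp q hq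
  obtain ⟨b, hb, h3, h4⟩ := hG.dir a ha r hr
  exact ⟨b, hb, h3.trans h1, h3.trans h2, h4⟩

section

variable {K : Type*} [Coded N K] [Tot N K]

/-- the condition `q` forces too many keys -/
def Big (φ : N → P → Prop) (K : Type*) [Coded N K] (q : P) : Prop :=
  ∃ T : Set K, Intl N T ∧ ∃ m k : NN N,
    (∃ n x n' x' : NN N, φ (code N (T, m, k, n, x)) q ∧ φ (code N (T, m, k, n', x')) q ∧ n ≠ n') ∨
      ∃ n c : NN N, Many {x | φ (code N (T, m, k, n, x)) q} n c ∧ ¬ c * (k + 1) ^ 2 ≤ n + 1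

theorem defF_big {φ : N → P → Prop} (hφ : DefF N (fun t : N × P => φ t.1 t.2)) :
    DefF N (Big φ K) := by
  unfold Big
  refine DefF.ex (DefF.exT (DefF.exT (DefF.or
    (DefF.exT (DefF.exT (DefF.exT (DefF.exT (DefF.and ?_ (DefF.and ?_ ?_))))))
    (DefF.exT (DefF.exT (DefF.and (DefF.many (DefF.setOfT ?_) ?_ ?_) ?_))))))
  · exact hφ.comp2 (F := φ) (by fun_prop) (by fun_prop)
  · exact hφ.comp2 (F := φ) (by fun_prop) (by fun_prop)
  · fun_prop
  · exact hφ.comp2 (F := φ) (by fun_prop) (by fun_prop)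
  · fun_prop
  · fun_prop
  · fun_prop

variable [DefLE N P]

/-- the condition `p` keeps the coordinates of `a` away from the keys forced into the set -/
def Av (φ : N → P → Prop) (ev : K → NN N → NN N → NN N → P → Prop) (T : Set K) (m : NN N) (a : K)
    (p : P) : Prop :=
  ∃ k₀ : NN N, ∀ k, k₀ ≤ k → ∀ n x : NN N, ∀ r : P, r ≤ p → ev a k n x r →
    ¬ (φ (code N (T, m, k, n, x)) r ∧ ∀ q : P, q ≤ r → ¬ Big φ K q)

theorem defF_av {φ : N → P → Prop} (hφ : DefF N (fun t : N × P => φ t.1 t.2))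
    {ev : K → NN N → NN N → NN N → P → Prop}
    (hev : DefF N (fun t : (K × NN N × NN N × NN N) × P =>
      ev t.1.1 t.1.2.1 t.1.2.2.1 t.1.2.2.2 t.2)) :
    DefF N (fun t : (Set K × NN N) × K × P => Av φ ev t.1.1 t.1.2 t.2.1 t.2.2) := by
  have hB := defF_big (K := K) hφ
  unfold Av
  refine DefF.exT (DefF.allT (DefF.imp ?_ (DefF.allT (DefF.allT (DefF.allT (DefF.imp ?_
    (DefF.imp ?_ (DefF.not (DefF.and ?_ (DefF.allT (DefF.imp ?_ (DefF.not ?_))))))))))))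
  · fun_prop
  · fun_prop
  · exact hev.comp2 (F := fun (t : K × NN N × NN N × NN N) (p : P) =>
      ev t.1 t.2.1 t.2.2.1 t.2.2.2 p)
      (f := fun t : (((((((Set K × NN N) × K × P) × NN N) × NN N) × NN N) × NN N) × P) =>
        (t.1.1.1.1.1.2.1, t.1.1.1.2, t.1.1.2, t.1.2)) (by fun_prop) (by fun_prop)
  · exact hφ.comp2 (F := φ) (by fun_prop) (by fun_prop)
  · fun_prop
  · exact hB.comp (by fun_prop)

/-- The ground model part. -/
theorem exists_ground [Nonempty K] {ev : K → NN N → NN N → NN N → P → Prop}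
    (hR : RFo N K P (fun k => (k + 1) ^ 2) ev) (hF : HasFree N K) {φ : N → P → Prop}
    (hφ : DefF N (fun t : N × P => φ t.1 t.2)) (mono : ∀ x p q, q ≤ p → φ x p → φ x q) :
    ∃ g : NN N → K, Intl N g ∧ ∀ T : Set (NN N), Intl N T → (∃ b, ∀ i ∈ T, i < b) →
      ∀ i, i ∉ T → ∀ m, ∀ q, ∃ p, p ≤ q ∧ Av φ ev (g '' T) m (g i) p := by
  have hB := defF_big (K := K) hφ
  have hA := defF_av hφ hR.dev
  have hR' : DefF N (fun t : (Set K × NN N) × (NN N → K) => ∀ a : K, (∀ n, t.2 n ≠ a) →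
      ∀ q : P, ∃ p : P, p ≤ q ∧ Av φ ev t.1.1 t.1.2 a p) := by
    refine DefF.allT (DefF.imp (DefF.allT (DefF.ne ?_ ?_)) (DefF.allT (DefF.exT (DefF.and ?_ ?_))))
    · exact DefF.id.fst.fst.snd.ap DefF.id.snd
    · fun_prop
    · fun_prop
    · exact hA.comp2 (F := fun (s : Set K × NN N) (u : K × P) => Av φ ev s.1 s.2 u.1 u.2)
        (f := fun t : (((((Set K × NN N) × (NN N → K)) × K) × P) × P) => t.1.1.1.1)
        (g := fun t : (((((Set K × NN N) × (NN N → K)) × K) × P) × P) => (t.1.1.2, t.2))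
        (by fun_prop) (by fun_prop)
  obtain ⟨f, hf, hf'⟩ := exists_defF_choice (N := N) (α := Set K × NN N) (β := NN N → K)
    (R := fun s e => ∀ a : K, (∀ n, e n ≠ a) →
      ∀ q : P, ∃ p : P, p ≤ q ∧ Av φ ev s.1 s.2 a p) hR' fun s hs => by
      obtain ⟨T, m⟩ := s
      have hT : Intl N T := (intl_prod.1 hs).1
      obtain ⟨Δ, -, ⟨e, he, he'⟩, H⟩ := hR.avoid
        (fun k n x p => φ (code N (T, m, k, n, x)) p ∧ ∀ q : P, q ≤ p → ¬ Big φ K q)
        (DefF.and (hφ.comp2 (F := φ) (by fun_prop) (by fun_prop))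
          (DefF.allT (DefF.imp (by fun_prop) (DefF.not (hB.comp (by fun_prop))))))
        (fun k n x p q hq h => ⟨mono _ _ _ hq h.1, fun r hr => h.2 r (hr.trans hq)⟩)
        (fun k n n' x x' p h h' => by
          by_contra hne
          exact h.2 p le_rfl ⟨T, hT, m, k, Or.inl ⟨n, x, n', x', h.1, h'.1, hne⟩⟩)
        (fun k n c p h => by
          by_contra hne
          rcases NN.zero_or_add_one c with rfl | ⟨c', rfl⟩
          · exact hne (by rw [zero_mul]; exact NN.zero_le' _)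
          · obtain ⟨u, hu, h1, h2⟩ := id h
            exact (h2 c' (NN.lt_add_one c')).2.2 p le_rfl ⟨T, hT, m, k,
              Or.inr ⟨n, c' + 1, h.mono fun x _ hx => hx.1, hne⟩⟩)
      refine ⟨e, he, fun a ha q => H a (fun h => ?_) q⟩
      obtain ⟨n, hn⟩ := he' a h
      exact ha n hn
  obtain ⟨g, hg, hg'⟩ := hF (fun T m n => f (T, m) n)
    ((hf.comp (g := fun p : Set K × NN N × NN N => (p.1, p.2.1)) (by fun_prop)).ap (by fun_prop))
  refine ⟨g, hg, fun T hT hb i hi m q => ?_⟩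
  have h1 : Intl N (g '' T) := intl_image (DefF.ofIntl g) T
  exact hf' (g '' T, m) inferInstance (g i) (fun n => (hg' T hT hb i hi m n).symm) q

end

/-- **The free set principle holds in the extension.** -/
theorem fs_of [DefLE N P] {A : N} [Nonempty (El A)]
    {ev : El A → NN N → NN N → NN N → P → Prop} (hj : Ext j) (hG : GExt j G)
    (hR : RFo N (El A) P (fun k => (k + 1) ^ 2) ev) (hF : HasFree N (El A)) : FS M := by
  have h0 : ∀ a k n, ∃ x, ∃ p ∈ G, ev a k n x p := fun a k n => by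
    obtain ⟨p, hp, x, hx⟩ := hG.gen (fun p => ∃ x, ev a k n x p)
      (DefF.exT (hR.dev.comp2 (F := fun (t : El A × NN N × NN N × NN N) (p : P) =>
        ev t.1 t.2.1 t.2.2.1 t.2.2.2 p) (f := fun t : P × NN N => (a, k, n, t.2))
        (by fun_prop) (by fun_prop))) (hR.dense a k n)
    exact ⟨x, p, hp, hx⟩
  choose r hr using h0
  have hru : ∀ a k n x, (∃ p ∈ G, ev a k n x p) ↔ r a k n = x := by
    intro a k n x
    refine ⟨fun ⟨p, hp, h⟩ => ?_, fun h => h ▸ hr a k n⟩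
    obtain ⟨q, hq, h'⟩ := hr a k n
    obtain ⟨s, -, h1, h2⟩ := hG.dir p hp q hq
    exact hR.uniq _ _ _ _ _ s (hR.mono _ _ _ _ _ _ h2 h') (hR.mono _ _ _ _ _ _ h1 h)
  have tn : Tr j hj.nn.toEquiv := hj.tr_nn
  have h1 := hG.defP hj (hj.tr_prodE (hj.tr_el A) (hj.tr_prodE tn (hj.tr_prodE tn tn)))
    (φ := fun (t : El A × NN N × NN N × NN N) (p : P) => ev t.1 t.2.1 t.2.2.1 t.2.2.2 p) hR.dev
  have h2 : DefF M (fun t : El (j A) × NN M × NN M =>
      hj.nn (r ((hj.el A).symm t.1) (hj.nn.symm t.2.1) (hj.nn.symm t.2.2))) := by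
    refine defF_of_rel (R := fun (t : El (j A) × NN M × NN M) (x : NN M) => ∃ p ∈ G,
      ev ((hj.el A).symm t.1) (hj.nn.symm t.2.1) (hj.nn.symm t.2.2) (hj.nn.symm x) p)
      (fun _ _ => inferInstance)
      (h1.comp (g := fun t : (El (j A) × NN M × NN M) × NN M => (t.1.1, t.1.2.1, t.1.2.2, t.2))
        (by fun_prop)) fun t x _ _ => ?_
    rw [hru, ← hj.nn.symm.injective.eq_iff, OrderIso.symm_apply_apply]
  refine ⟨j A, fun a k n => hj.nn (r ((hj.el A).symm a) (hj.nn.symm k) (hj.nn.symm n)),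
    DefF.toIntl (DefF.lam _ (DefF.lam _ (h2.comp
      (g := fun t : (El (j A) × NN M) × NN M => (t.1.1, t.1.2, t.2)) (by fun_prop)))),
    fun a k n => ?_, fun S hS hsm => ?_⟩
  · obtain ⟨p, -, hp⟩ := hr ((hj.el A).symm a) (hj.nn.symm k) (hj.nn.symm n)
    exact hj.nn.le_symm_apply.1 (hR.le _ _ _ _ _ hp)
  obtain ⟨φ, hφ, mono, hname⟩ := hG.name (code M S)
  have tk := hj.tr_prod (hj.tr_set (hj.tr_el A))
    (hj.tr_prod hj.tr_nn (hj.tr_prod hj.tr_nn (hj.tr_prod hj.tr_nn hj.tr_nn)))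
  have hkey : ∀ (T : Set (El A)) [Intl N T] (m k n x : NN N),
      (hj.el A '' T, hj.nn m, hj.nn k, hj.nn n, hj.nn x) ∈ S ↔
        ∃ p ∈ G, φ (code N (T, m, k, n, x)) p := by
    intro T _ m k n x
    rw [← hname, ← tk.code (T, m, k, n, x), code_mem_code hS (tk.intl (T, m, k, n, x))]
    rfl
  have hB := defF_big (K := El A) hφ
  obtain ⟨q₀, hq₀, hq⟩ := hG.gen (fun q => Big φ (El A) q ∨ ∀ p : P, p ≤ q → ¬ Big φ (El A) p)
    (DefF.or hB (DefF.allT (DefF.imp (by fun_prop) (DefF.not (hB.comp (by fun_prop)))))) fun q => by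
      by_cases h : ∃ p, p ≤ q ∧ Big φ (El A) p
      · obtain ⟨p, h1, h2⟩ := h
        exact ⟨p, h1, Or.inl h2⟩
      · exact ⟨q, le_rfl, Or.inr fun p h1 h2 => h ⟨p, h1, h2⟩⟩
  replace hq : ∀ p : P, p ≤ q₀ → ¬ Big φ (El A) p := by
    refine hq.resolve_left ?_
    rintro ⟨T, hT, m, k, ⟨n, x, n', x', h3, h4, h5⟩ | ⟨n, c, ⟨u, hu, h3, h4⟩, h5⟩⟩
    · exact h5 (hj.nn.injective ((hsm _ _ _).1 _ _ _ _ ((hkey T m k n x).2 ⟨_, hq₀, h3⟩)
        ((hkey T m k n' x').2 ⟨_, hq₀, h4⟩)))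
    · have h6 := (hsm (hj.el A '' T) (hj.nn m) (hj.nn k)).2 (hj.nn n) (hj.nn c)
        (fun i => hj.nn (u (hj.nn.symm i))) (hj.intl_fun tn hj.tr_nn u)
        (fun a b h6 h7 => hj.nn_lt.2 (h3 _ _ (hj.nn.symm.lt_iff_lt.2 h6)
          (hj.nn.symm_apply_lt.2 h7)))
        (fun i hi => ⟨hj.nn_le.2 (h4 _ (hj.nn.symm_apply_lt.2 hi)).1,
          (hkey T m k n _).2 ⟨_, hq₀, (h4 _ (hj.nn.symm_apply_lt.2 hi)).2⟩⟩)
      refine h5 (hj.nn_le.1 ?_)
      rw [hj.nn_mul, hj.nn_pow, hj.nn_add, hj.nn_add, hj.nn_one]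
      exact h6
  obtain ⟨g, hg, hg'⟩ := exists_ground hR hF hφ mono
  refine ⟨fun i => hj.el A (g (hj.nn.symm i)), hj.intl_fun tn (hj.tr_el A) g,
    fun T' hT' ⟨b, hb⟩ i' hi m' => ?_⟩
  obtain ⟨T, hT, rfl⟩ := hj.fin_set T' hb
  obtain ⟨i, rfl⟩ := hj.nn.surjective i'
  obtain ⟨m, rfl⟩ := hj.nn.surjective m'
  have hgT : Intl N (g '' T) := intl_image (DefF.ofIntl g) T
  obtain ⟨p, hp, k₀, H⟩ := hG.gen (fun p => Av φ ev (g '' T) m (g i) p)
    ((defF_av hφ hR.dev).comp (g := fun p : P => ((g '' T, m), g i, p)) (by fun_prop))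
    (hg' T hT ⟨hj.nn.symm b, fun l hl => hj.nn.lt_symm_apply.2 (hb _ ⟨l, hl, rfl⟩)⟩ i
      (fun h => hi ⟨i, h, rfl⟩) m)
  refine ⟨hj.nn k₀, fun k' hk n' hmem => ?_⟩
  obtain ⟨k, rfl⟩ := hj.nn.surjective k'
  obtain ⟨n, rfl⟩ := hj.nn.surjective n'
  have e1 : (fun i => hj.el A (g (hj.nn.symm i))) '' (hj.nn '' T) = hj.el A '' (g '' T) := by
    simp only [Set.image_image, OrderIso.symm_apply_apply]
  simp only [e1, OrderIso.symm_apply_apply, Equiv.symm_apply_apply] at hmem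
  obtain ⟨p₁, hp₁, h3⟩ := (hkey (g '' T) m k n _).1 hmem
  obtain ⟨p₂, hp₂, h4⟩ := hr (g i) k n
  obtain ⟨p₃, hp₃, h5, h6, h7⟩ := hG.dir3 hp hp₁ hp₂
  obtain ⟨p₄, -, h8, h9⟩ := hG.dir p₃ hp₃ q₀ hq₀
  exact H k (hj.nn_le.1 hk) n _ p₄ (h8.trans h5) (hR.mono _ _ _ _ _ _ (h8.trans h7) h4)
    ⟨mono _ _ _ (h8.trans h6) h3, fun q h => hq q (h.trans h9)⟩

end Vale.Agent.P129B
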